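import Vale.Agent.P144U.Defs
import Vale.Agent.P144E.Ge3.Dig

/-!
The charts of the dug sets.
-/

namespace Vale.Agent.P144Z

open Finset

namespace UFar

variable {u v p p' g g' e e' : ℤ × ℤ} {t n : ℕ}

theorem zd_le : zd u v ≤ n ↔ u.1 - v.1 ≤ n ∧ v.1 - u.1 ≤ n ∧ u.2 - v.2 ≤ n ∧ v.2 - u.2 ≤ n := by
  unfold zd
  omega

theorem lt_zd : n < zd u v ↔ n < u.1 - v.1 ∨ n < v.1 - u.1 ∨ n < u.2 - v.2 ∨ n < v.2 - u.2 := by
  unfold zd
  omega

theorem tdist_eq {M : ℕ} [NeZero M] (hu : zd u 0 ≤ n) (hv : zd v 0 ≤ n) (hM : 4 * n < M) :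
    tdist (prj M u) (prj M v) = zd u v := by
  rw [G.tdist_def, ← G.prj_sub, lft_prj]
  · rfl
  all_goals
    simp only [zd_le, Prod.fst_sub, Prod.snd_sub, Prod.fst_zero, Prod.snd_zero,
      Int.abs_eq_natAbs] at hu hv ⊢
    omega

theorem cr_bd (h1 : zd p 0 ≤ n) (h2 : zd g 0 ≤ t)
    (he : (e.1 = t ∨ e.1 = -t) ∧ (e.2 = t ∨ e.2 = -t)) : zd (p + g + e) 0 ≤ n + 2 * t := by
  simp only [zd_le, Prod.fst_add, Prod.snd_add, Prod.fst_zero, Prod.snd_zero] at h1 h2 ⊢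
  omega

theorem cr_ne (ht : 0 < t) (he : (e.1 = t ∨ e.1 = -t) ∧ (e.2 = t ∨ e.2 = -t))
    (he' : (e'.1 = t ∨ e'.1 = -t) ∧ (e'.2 = t ∨ e'.2 = -t)) (h : e ≠ e') :
    t < zd (p + e) (p + e') := by
  rw [Ne, Prod.ext_iff] at h
  simp only [lt_zd, Prod.fst_add, Prod.snd_add]
  omega

theorem cr_far (h1 : zd g 0 ≤ t) (h2 : zd g' 0 ≤ t)
    (he : (e.1 = t ∨ e.1 = -t) ∧ (e.2 = t ∨ e.2 = -t))
    (he' : (e'.1 = t ∨ e'.1 = -t) ∧ (e'.2 = t ∨ e'.2 = -t)) (h : 5 * t < zd p p') :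
    t < zd (p + g + e) (p' + g' + e') := by
  simp only [zd_le, lt_zd, Prod.fst_add, Prod.snd_add, Prod.fst_zero, Prod.snd_zero] at h1 h2 h ⊢
  omega

end UFar

open UFar Ge3

theorem chStmt_of (hS : ShiftU) : ChStmt := by
  obtain ⟨t₀, hS⟩ := hS
  refine ⟨t₀ + 1, fun t ht α κ Λ P r T R h hΛ hP hR => ?_⟩
  have hS := hS t (by omega)
  have hg : ∀ p, ∃ g, 2 * zd g 0 ≤ t ∧ (p ∈ P → ∃ un S₁ S₂ ν₁ ν₂, TipK un S₁ S₂ ν₁ ν₂ α κ ∧
      GoodC g t ν₁ ν₂ ∧ ∀ v, zd v 0 ≤ r → (p + v ∈ Λ ↔ v ∈ Two un S₁ S₂)) := fun p => by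
    by_cases hp : p ∈ P
    · obtain ⟨un, S₁, S₂, ν₁, ν₂, a1, a2⟩ := h.tip p hp
      obtain ⟨g, hg⟩ := hS ν₁ ν₂ a1.1.n₁ a1.1.n₂
      exact ⟨g, hg.1, fun _ => ⟨un, S₁, S₂, ν₁, ν₂, a1, hg, a2⟩⟩
    · exact ⟨0, by simp [zd], fun k => absurd k hp⟩
  choose g g0 g2 using hg
  have g1 : ∀ p, zd (g p) 0 ≤ t := fun p => by have := g0 p; omega
  refine ⟨fun p => p + g p, fun p => by simpa [zd] using g0 p, fun M _ hM => ⟨?_,
    (P ×ˢ ({(t : ℤ), -(t : ℤ)} ×ˢ {(t : ℤ), -(t : ℤ)})).image fun q => prj M (q.1 + g q.1 + q.2),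
    ?_, fun y => ?_⟩⟩
  · simp only [forall_mem_image]
    intro q hq q' hq' e
    rw [tdist_eq (hP q hq) (hP q' hq') (by omega)]
    exact h.sep q hq q' hq' fun k => e (k ▸ rfl)
  · simp only [forall_mem_image, mem_product, mem_insert, mem_singleton]
    rintro ⟨p, e⟩ ⟨hp, he⟩ ⟨p', e'⟩ ⟨hp', he'⟩ ne
    rw [tdist_eq (cr_bd (hP p hp) (g1 p) he) (cr_bd (hP p' hp') (g1 p') he') (by omega)]
    by_cases k : p = p'
    · subst k
      exact cr_ne (by omega) he he' fun o => ne (o ▸ rfl)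
    · exact cr_far (g1 p) (g1 p') he he' (lt_of_le_of_lt (by omega) (h.sep p hp p' hp' k))
  have hm : ∀ v, zd v 0 ≤ R → (y + prj M v ∈ (dig Λ (P.image fun p => p + g p) t).image (prj M) ↔
      lft y + v ∈ Λ ∧ ∀ p ∈ P, t < zd (lft y + v) (p + g p)) := fun v hv =>
    (mem_image_iff (r := r) (fun u hu => hΛ u (mem_dig.1 hu).1) (by omega) y
      (hv.trans (by omega))).trans (mem_dig.trans (and_congr_right' forall_mem_image))
  have hd : ∀ p, tdist y (prj M p) ≤ zd (lft y - p) 0 := by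
    intro p
    have := tdist_prj_le (M := M) (lft y) p
    rw [prj_lft] at this
    simpa [zd] using this
  have hy := prj_lft y
  generalize lft y = z at hm hd hy
  have he : ∀ p v : ℤ × ℤ, z + v = p + (z - p + v) := fun p v => by abel
  by_cases h1 : ∃ p ∈ P, zd z p ≤ R + 3 * t
  · obtain ⟨p, hp, h2⟩ := h1
    obtain ⟨un, S₁, S₂, ν₁, ν₂, a1, a2, a3⟩ := g2 p hp
    refine Or.inr ⟨_, mem_image_of_mem _ hp, z - p, g p, un, S₁, S₂, ν₁, ν₂, hd p, a1, a2,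
      fun q hq _ => mem_image.2 ⟨(p, q - g p), ?_, ?_⟩, fun v hv => (hm v hv).trans ?_⟩
    · simp only [IsCr, mem_product, mem_insert, mem_singleton, hp, true_and, Prod.fst_sub,
        Prod.snd_sub] at hq ⊢
      omega
    · rw [← hy, ← G.prj_add]
      exact congrArg _ (show p + g p + (q - g p) = _ by abel)
    have h4 : zd (z - p + v) 0 ≤ 2 * R + 3 * t := by
      simp only [zd_le, Prod.fst_add, Prod.snd_add, Prod.fst_sub, Prod.snd_sub, Prod.fst_zero,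
        Prod.snd_zero] at h2 hv ⊢
      omega
    have h3 : t < zd (z - p + v) (g p) ↔ t < zd (z + v) (p + g p) := by
      simp only [lt_zd, Prod.fst_add, Prod.snd_add, Prod.fst_sub, Prod.snd_sub]
      omega
    rw [he p v, a3 _ (by omega), ← he p v]
    refine and_congr_right fun _ => ⟨fun k => h3.2 (k p hp), fun k p' hp' => ?_⟩
    by_cases e : p = p'
    · exact e ▸ h3.1 k
    · have h5 := h.sep p hp p' hp' e
      have h6 := g1 p'
      simp only [zd_le, lt_zd, Prod.fst_add, Prod.snd_add, Prod.fst_sub, Prod.snd_sub,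
        Prod.fst_zero, Prod.snd_zero] at h4 h5 h6 ⊢
      omega
  · have h3 : ∀ p ∈ P, R + 3 * t < zd z p := fun p hp => not_le.1 fun k => h1 ⟨p, hp, k⟩
    have h2 : ∀ v, zd v 0 ≤ R → ∀ p ∈ P, t < zd (z + v) (p + g p) := by
      intro v hv p hp
      have h4 := h3 p hp
      have h5 := g1 p
      simp only [zd_le, lt_zd, Prod.fst_add, Prod.snd_add, Prod.fst_zero, Prod.snd_zero]
        at h4 h5 hv ⊢
      omega
    rcases h.chart z with ⟨S₁, S₂, ν₁, ν₂, a1, a2, a3, a4, a5, a6⟩ |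
      ⟨p, hp, ρ, a1, un, S₁, S₂, ν₁, ν₂, a2, a3⟩
    · exact Or.inl ⟨S₁, S₂, ν₁, ν₂, a1, a2, a3, a4, a5, fun v hv =>
        ((hm v hv).trans (and_iff_left (h2 v hv))).trans (a6 v (by omega))⟩
    · obtain ⟨c, hc⟩ := hS ν₁ ν₂ a2.1.n₁ a2.1.n₂
      have h4 := h3 p hp
      have h5 : zd c 0 ≤ t := by have := hc.1; omega
      have h7 : zd z p ≤ ρ - R ∧ R ≤ ρ := by omega
      refine Or.inr ⟨_, mem_image_of_mem _ hp, z - p, c, un, S₁, S₂, ν₁, ν₂, hd p, a2, hc,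
        fun q hq hq' => False.elim ?_, fun v hv => ?_⟩
      · simp only [zd_le, lt_zd, IsCr, Prod.fst_sub, Prod.snd_sub, Prod.fst_zero, Prod.snd_zero]
          at h4 h5 hq hq'
        omega
      have h6 : zd (z - p + v) 0 ≤ ρ ∧ t < zd (z - p + v) c := by
        simp only [zd_le, lt_zd, Prod.fst_add, Prod.snd_add, Prod.fst_sub, Prod.snd_sub,
          Prod.fst_zero, Prod.snd_zero] at h4 h5 h7 hv ⊢
        omega
      rw [hm v hv, and_iff_left (h2 v hv), he p v, a3 _ h6.1]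
      exact (and_iff_left h6.2).symm

end Vale.Agent.P144Z
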