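import Vale.Agent.P144U.Defs
import Vale.Agent.P144E.Ge2.Far

/-!
Away from a tip only one wall is seen; the choice of the centre of the removed square.
-/

namespace Vale.Agent.P144Z

open B5b Ge2

namespace UFar

/-- The three positions of a square with respect to a wall. -/
theorem one {S : Set (ℤ × ℤ)} {ν : ℂ} {κ : ℝ} (h : Epi S ν κ) (hν : ‖ν‖ = 1) (h0 : 0 ≤ κ)
    (h1 : κ ≤ 1 / 4) (w : (∃ f ∈ S, zd f 0 ≤ 2) ∧ ∃ f, f ∉ S ∧ zd f 0 ≤ 2) (y : ℤ × ℤ) (ρ : ℕ) :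
    ∃ S', Epi S' ν κ ∧ (S' = Set.univ ∨ S' = ∅ ∨ |ht ν y| ≤ 2 * κ * zd y 0 + 3 * ρ + 5) ∧
      ∀ v, zd v 0 ≤ ρ → (y + v ∈ S ↔ v ∈ S') := by
  by_cases c1 : 2 * κ * zd y 0 + 3 * ρ + 5 ≤ ht ν y
  · exact ⟨_, epi_univ _ _, Or.inl rfl, fun v hv =>
      iff_of_true (inn h hν h0 h1 w.1 le_rfl hv c1) trivial⟩
  by_cases c2 : ht ν y ≤ -(2 * κ * zd y 0 + 3 * ρ + 5)
  · exact ⟨∅, fun _ k => k.elim, Or.inr (Or.inl rfl), fun v hv =>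
      iff_of_false (out h hν h0 h1 w.2 le_rfl hv c2) id⟩
  exact ⟨_, epi_shift h y, Or.inr (Or.inr (abs_le.2 ⟨(not_le.1 c2).le, (not_le.1 c1).le⟩)),
    fun _ _ => Iff.rfl⟩

theorem small {a t x y u u' : ℝ} (hx : |x| ≤ 3 / 2 * t) (hy : |y| ≤ 3 / 2 * t)
    (hu : 20 * |u| < t) (hu' : 20 * |u'| < t) (e : a = u * x - u' * y) :
    a ^ 2 ≤ (3 / 20 * t ^ 2) ^ 2 := by
  have h1 := mul_le_mul (show |u| ≤ t / 20 by linarith) hx (abs_nonneg _)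
    (by linarith [abs_nonneg u])
  have h2 := mul_le_mul (show |u'| ≤ t / 20 by linarith) hy (abs_nonneg _)
    (by linarith [abs_nonneg u])
  have h3 := abs_sub (u * x) (u' * y)
  rw [abs_mul, abs_mul, ← e] at h3
  rw [← sq_abs a]
  exact pow_le_pow_left₀ (abs_nonneg a) (by linarith) 2

/-- A wall is close to a corner. -/
def Bad (c : ℤ × ℤ) (t : ℕ) (ν : ℂ) : Prop := ∃ q, IsCr c t q ∧ 20 * |ht ν q| < t

theorem cast_le {x : ℤ} {t : ℕ} (hx : 2 * x.natAbs ≤ 3 * t) : |(x : ℝ)| ≤ 3 / 2 * t := by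
  have : (2 : ℝ) * x.natAbs ≤ 3 * t := by exact_mod_cast hx
  rw [Nat.cast_natAbs, Int.cast_abs] at this
  linarith

theorem cr_le {c q : ℤ × ℤ} {t : ℕ} (hc : 2 * zd c 0 ≤ t) (h : IsCr c t q) :
    2 * q.1.natAbs ≤ 3 * t ∧ 2 * q.2.natAbs ≤ 3 * t := by
  simp only [zd, IsCr, Prod.fst_zero, Prod.snd_zero] at hc h
  omega

theorem fin {D a b t : ℝ} (t0 : 0 < t) (e : a ^ 2 + b ^ 2 = 1) (h0 : 2 * t ^ 2 ≤ 9 * |D|)
    (h1 : (D * a) ^ 2 ≤ (3 / 20 * t ^ 2) ^ 2) (h2 : (D * b) ^ 2 ≤ (3 / 20 * t ^ 2) ^ 2) : False := by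
  have h3 := pow_le_pow_left₀ (by positivity) h0 2
  rw [mul_pow 9, sq_abs] at h3
  have h4 := add_le_add h1 h2
  rw [mul_pow D, mul_pow D, ← mul_add, e] at h4
  linarith [pow_pos t0 4]

theorem kill {c c' : ℤ × ℤ} {t : ℕ} {ν : ℂ} (hν : ‖ν‖ = 1) (hc : 2 * zd c 0 ≤ t)
    (hc' : 2 * zd c' 0 ≤ t) (h : Bad c t ν) (h' : Bad c' t ν)
    (hd : ∀ q q', IsCr c t q → IsCr c' t q' → 2 * (t : ℤ) ^ 2 ≤ 9 * |q.1 * q'.2 - q.2 * q'.1|) :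
    False := by
  obtain ⟨q, q1, q2⟩ := h
  obtain ⟨q', q3, q4⟩ := h'
  refine fin (D := q.1 * q'.2 - q.2 * q'.1) (lt_of_le_of_lt (by positivity) q2) (sq_of_norm hν)
    (by exact_mod_cast hd q q' q1 q3)
    (small (cast_le (cr_le hc' q3).2) (cast_le (cr_le hc q1).2) q2 q4 ?_)
    (small (cast_le (cr_le hc q1).1) (cast_le (cr_le hc' q3).1) q4 q2 ?_)
  all_goals
    unfold ht
    ring

theorem cr {x y : ℤ} {t : ℕ} {q : ℤ × ℤ} (h : IsCr (x, y) t q) :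
    (q.1 = x + t ∨ q.1 = x - t) ∧ (q.2 = y + t ∨ q.2 = y - t) := by
  simp only [IsCr] at h
  omega

theorem det {x y x' y' h : ℤ} {t : ℕ} (A : 2 * (t : ℤ) ^ 2 ≤ 9 * (h * h))
    (B : 2 * (h * h) ≤ t * h) (C : 2 * (t * h) ≤ (t : ℤ) ^ 2)
    (hc : x = 0 ∧ y = 0 ∧ x' = h ∧ y' = 0 ∨ y = 0 ∧ x' = 0 ∧ y' = h ∧ (x = 0 ∨ x = h))
    (q q' : ℤ × ℤ) (a : IsCr (x, y) t q) (b : IsCr (x', y') t q') :
    2 * (t : ℤ) ^ 2 ≤ 9 * |q.1 * q'.2 - q.2 * q'.1| := by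
  have e1 := le_abs_self (q.1 * q'.2 - q.2 * q'.1)
  have e2 := neg_abs_le (q.1 * q'.2 - q.2 * q'.1)
  generalize |q.1 * q'.2 - q.2 * q'.1| = D at e1 e2 ⊢
  have a := cr a
  have b := cr b
  generalize (t : ℤ) = t at A B C a b ⊢
  generalize q.1 = u, q.2 = v, q'.1 = u', q'.2 = v' at a b e1 e2
  obtain ⟨rfl, rfl, rfl, rfl⟩ | ⟨rfl, rfl, rfl, rfl | rfl⟩ := hc <;>
    obtain ⟨rfl | rfl, rfl | rfl⟩ := a <;> obtain ⟨rfl | rfl, rfl | rfl⟩ := b <;> linarith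

end UFar

open UFar

theorem farU : FarU := by
  intro α hα
  have hα2 : 0 < α * α := mul_pos hα hα
  refine ⟨⌈48 / (α * α)⌉₊, α * α / 16, by positivity, fun κ h0 hκ un S₁ S₂ ν₁ ν₂ h y ρ hy => ?_⟩
  have a2 := h.le_two
  have h1 : κ ≤ 1 / 4 := by nlinarith
  obtain ⟨T₁, a1, b1, c1⟩ := one h.e₁ h.n₁ h0 h1 h.w₁ y ρ
  obtain ⟨T₂, a2, b2, c2⟩ := one h.e₂ h.n₂ h0 h1 h.w₂ y ρ
  have e : ∀ v, zd v 0 ≤ ρ → (y + v ∈ Two un S₁ S₂ ↔ v ∈ Two un T₁ T₂) := fun v hv => by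
    simp only [Two, Set.mem_ofPred_eq, c1 v hv, c2 v hv]
  suffices Two un T₁ T₂ = T₁ ∨ Two un T₁ T₂ = T₂ from this.elim
    (fun k => ⟨T₁, ν₁, Or.inl rfl, a1, b1, k ▸ e⟩) fun k => ⟨T₂, ν₂, Or.inr rfl, a2, b2, k ▸ e⟩
  rcases b1 with rfl | rfl | b1
  · cases un <;> simp [Two]
  · cases un <;> simp [Two]
  rcases b2 with rfl | rfl | b2
  · cases un <;> simp [Two]
  · cases un <;> simp [Two]
  exfalso
  have r0 : (0 : ℝ) ≤ ρ := Nat.cast_nonneg ρ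
  obtain ⟨k1, k2⟩ := cramer h.n₁ h.n₂ hα hα h.add h.sub b1 b2
  have k3 := (le_div_iff₀ hα2).1 (zd_le_real k1 k2)
  have k4 : 48 ≤ (⌈48 / (α * α)⌉₊ : ℝ) * (α * α) := (div_le_iff₀ hα2).1 (Nat.le_ceil _)
  have k5 : (⌈48 / (α * α)⌉₊ : ℝ) * (ρ + 1) ≤ zd y 0 := by exact_mod_cast hy
  have k6 : (0 : ℝ) ≤ zd y 0 := Nat.cast_nonneg _
  have k7 := mul_le_mul_of_nonneg_right hκ k6
  have k8 := mul_le_mul_of_nonneg_right k5 hα2.le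
  have k9 := mul_le_mul_of_nonneg_right k4 (show (0 : ℝ) ≤ ρ + 1 by linarith)
  nlinarith

theorem shiftU : ShiftU := by
  refine ⟨18, fun t ht ν₁ ν₂ n₁ n₂ => ?_⟩
  obtain ⟨h, h1, h2⟩ : ∃ h : ℤ, 2 * h ≤ t ∧ (t : ℤ) ≤ 2 * h + 1 := ⟨t / 2, by omega, by omega⟩
  have t0 : (18 : ℤ) ≤ t := by exact_mod_cast ht
  have A : 2 * (t : ℤ) ^ 2 ≤ 9 * (h * h) := by nlinarith
  have B : 2 * (h * h) ≤ t * h := by nlinarith
  have C : 2 * (t * h) ≤ (t : ℤ) ^ 2 := by nlinarith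
  have z0 : 2 * zd (0, 0) 0 ≤ t := by simp [zd]
  have z1 : 2 * zd (h, 0) 0 ≤ t := by simp only [zd, Prod.fst_zero, Prod.snd_zero]; omega
  have z2 : 2 * zd (0, h) 0 ≤ t := by simp only [zd, Prod.fst_zero, Prod.snd_zero]; omega
  have k : ∀ ν, ‖ν‖ = 1 → (Bad (0, 0) t ν → Bad (h, 0) t ν → False) ∧
      (Bad (0, 0) t ν → Bad (0, h) t ν → False) ∧ (Bad (h, 0) t ν → Bad (0, h) t ν → False) :=
    fun ν n => ⟨fun a b => kill n z0 z1 a b (det A B C (by simp)),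
      fun a b => kill n z0 z2 a b (det A B C (by simp)),
      fun a b => kill n z1 z2 a b (det A B C (by simp))⟩
  by_contra hn
  have b : ∀ c, 2 * zd c 0 ≤ t → Bad c t ν₁ ∨ Bad c t ν₂ := fun c hc => by
    by_contra hb
    exact hn ⟨c, hc, fun q hq => ⟨not_lt.1 fun o => hb (Or.inl ⟨q, hq, o⟩),
      not_lt.1 fun o => hb (Or.inr ⟨q, hq, o⟩)⟩⟩
  obtain ⟨a1, a2, a3⟩ := k ν₁ n₁
  obtain ⟨b1, b2, b3⟩ := k ν₂ n₂
  rcases b _ z0 with x | x <;> rcases b _ z1 with y | y <;> rcases b _ z2 with z | z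
  exacts [a1 x y, a1 x y, a2 x z, b3 y z, a3 y z, b2 x z, b1 x y, b1 x y]

end Vale.Agent.P144Z
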